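import Vale.Agent.P276T.Fin
import Vale.Agent.P276M.Main

open Vale.Agent.P276.Stmt

theorem Vale.Agent.Results.P280.LargeIndex.result (N n c : ℕ) (hn : 1 ≤ n) (hc : n + c = N)
    (X : Set (PP fun _ : Unit => N)) (hcl : @IsClosed _ (zar _) X)
    (hconn : @IsConnected _ (zar _) X) (hsm : Smooth X c)
    (K : Cocycle fun _ : Unit => N) (hK : IsLineBundle X K) (hcan : IsCanonical X n K)
    (hF : AntiAmple X K) (ρ m : ℕ) (hρ : IsGreatest (indep X) ρ)
    (hι : IsLeast (degs X K) (m + 1)) (hbig : n ≤ ρ * m) :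
    Iso X (Set.univ : Set (PP fun _ : Fin ρ => m)) ∧
      ∀ x y : PP fun _ : Fin ρ => m,
        ∃ g : Fin ρ → Matrix.SpecialLinearGroup (Fin (m + 1)) ℂ, ∀ k, g k • x k = y k := by
  have _ := hcl
  have h := Vale.Agent.P276T.final Vale.Agent.P276M.coreM N n c hn hc X hconn hsm K hK hcan hF ρ
    (m + 1) hρ.1 hι
  refine ⟨h.2.1 (le_antisymm h.1 hbig), fun x y => ?_⟩
  choose g hg using fun k =>
    MulAction.exists_smul_eq (Matrix.SpecialLinearGroup (Fin (m + 1)) ℂ) (x k) (y k)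
  exact ⟨g, hg⟩
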